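import Vale.Agent.P218N.Stokes.Exist
import Mathlib.Analysis.InnerProductSpace.Calculus

/-!
# P218N, Stokes constant: the two continuations of the solution differ on the left
-/

open Filter Topology Set Metric

noncomputable section

namespace Vale.Agent.P218N.Stokes

/-- two-sided Gronwall inequality for `φ' = c φ` -/
theorem gron {φ c : ℝ → ℂ} {B b : ℝ → ℝ} {s T : ℝ} (hT : s ≤ T)
    (hφ : ∀ t ∈ Icc s T, HasDerivAt φ (c t * φ t) t) (hB : ∀ t ∈ Icc s T, HasDerivAt B (b t) t)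
    (hc : ∀ t ∈ Icc s T, ‖c t‖ ≤ b t) :
    ‖φ T‖ ≤ ‖φ s‖ * Real.exp (B T - B s) ∧ ‖φ s‖ ≤ ‖φ T‖ * Real.exp (B T - B s) := by
  have bd : ∀ t ∈ Icc s T, |inner ℝ (φ t) (c t * φ t)| ≤ b t * ‖φ t‖ ^ 2 := fun t ht => by
    refine (abs_real_inner_le_norm _ _).trans ?_
    rw [norm_mul]
    nlinarith [mul_le_mul_of_nonneg_right (hc t ht) (sq_nonneg ‖φ t‖)]
  have key : ∀ σ : ℝ, ∀ t ∈ Icc s T, HasDerivAt (fun t => ‖φ t‖ ^ 2 * Real.exp (σ * B t))
      ((2 * inner ℝ (φ t) (c t * φ t) + σ * b t * ‖φ t‖ ^ 2) * Real.exp (σ * B t)) t :=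
    fun σ t ht => ((hφ t ht).norm_sq.mul ((hB t ht).const_mul σ).exp).congr_deriv (by ring)
  have sq : ∀ x y u : ℝ, 0 ≤ y → x ^ 2 ≤ y ^ 2 * Real.exp (2 * u) → x ≤ y * Real.exp u :=
    fun x y u hy h => by
      refine abs_le_of_sq_le_sq' ?_ (by positivity) |>.2
      rwa [mul_pow, ← Real.exp_nat_mul]
  constructor
  · have := antitoneOn_of_deriv_nonpos (convex_Icc s T)
      (fun t ht => (key (-2) t ht).continuousAt.continuousWithinAt)
      (fun t ht => (key (-2) t (interior_subset ht)).differentiableAt.differentiableWithinAt)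
      (fun t ht => by
        rw [(key (-2) t (interior_subset ht)).deriv]
        refine mul_nonpos_of_nonpos_of_nonneg ?_ (Real.exp_pos _).le
        linarith [(abs_le.1 (bd t (interior_subset ht))).2])
      (left_mem_Icc.2 hT) (right_mem_Icc.2 hT) hT
    refine sq _ _ _ (norm_nonneg _) ?_
    have h2 := mul_le_mul_of_nonneg_right this (Real.exp_pos (2 * B T)).le
    rw [mul_assoc, mul_assoc, ← Real.exp_add, ← Real.exp_add] at h2
    rwa [show -2 * B T + 2 * B T = 0 by ring, Real.exp_zero, mul_one,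
      show -2 * B s + 2 * B T = 2 * (B T - B s) by ring] at h2
  · have := monotoneOn_of_deriv_nonneg (convex_Icc s T)
      (fun t ht => (key 2 t ht).continuousAt.continuousWithinAt)
      (fun t ht => (key 2 t (interior_subset ht)).differentiableAt.differentiableWithinAt)
      (fun t ht => by
        rw [(key 2 t (interior_subset ht)).deriv]
        refine mul_nonneg ?_ (Real.exp_pos _).le
        linarith [(abs_le.1 (bd t (interior_subset ht))).1])
      (left_mem_Icc.2 hT) (right_mem_Icc.2 hT) hT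
    refine sq _ _ _ (norm_nonneg _) ?_
    have h2 := mul_le_mul_of_nonneg_right this (Real.exp_pos (-2 * B s)).le
    rw [mul_assoc, mul_assoc, ← Real.exp_add, ← Real.exp_add] at h2
    rwa [show 2 * B s + -2 * B s = 0 by ring, Real.exp_zero, mul_one,
      show 2 * B T + -2 * B s = 2 * (B T - B s) by ring] at h2

/-- a small solution of the inner equation on `U` -/
structure Sol (k : ℂ → ℂ) (U : Set ℂ) : Prop where
  far : ∀ Y ∈ U, 128000 ≤ ‖Y‖
  der : ∀ Y ∈ U, HasDerivAt k (rhs Y (k Y)) Y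
  bd : ∀ Y ∈ U, ‖k Y‖ ≤ 128 / ‖Y‖

theorem Sol.mono {k : ℂ → ℂ} {U V : Set ℂ} (h : Sol k U) (hV : V ⊆ U) : Sol k V :=
  ⟨fun Y hY => h.far Y (hV hY), fun Y hY => h.der Y (hV hY), fun Y hY => h.bd Y (hV hY)⟩

/-- the normalised difference of two solutions -/
def nd (k l : ℂ → ℂ) (Y : ℂ) : ℂ := Complex.exp (-Y / 4) * (k Y - l Y)

theorem norm_nd (k l : ℂ → ℂ) (Y : ℂ) : ‖nd k l Y‖ = Real.exp (-Y.re / 4) * ‖k Y - l Y‖ := by
  rw [nd, norm_mul, Complex.norm_exp]
  simp

theorem Sol.hasDerivAt_nd {k l : ℂ → ℂ} {U : Set ℂ} (hk : Sol k U) (hl : Sol l U) {Y : ℂ}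
    (hY : Y ∈ U) : HasDerivAt (nd k l) (cf Y (k Y) (l Y) * nd k l Y) Y := by
  have d1 : HasDerivAt (fun z : ℂ => Complex.exp (-z / 4)) (Complex.exp (-Y / 4) * (-1 / 4)) Y :=
    ((hasDerivAt_id Y).neg.div_const 4).cexp
  refine (d1.mul ((hk.der Y hY).sub (hl.der Y hY))).congr_deriv ?_
  rw [rhs_sub, nd]
  simp only [Pi.sub_apply]
  ring

theorem Sol.cf_le {k l : ℂ → ℂ} {U : Set ℂ} (hk : Sol k U) (hl : Sol l U) {Y : ℂ}
    (hY : Y ∈ U) : ‖cf Y (k Y) (l Y)‖ ≤ 130 / ‖Y‖ :=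
  Stokes.cf_le (hk.far Y hY) (hk.bd Y hY) (hl.bd Y hY)

/-- comparison along a segment -/
theorem Sol.seg {k l : ℂ → ℂ} {U : Set ℂ} (hk : Sol k U) (hl : Sol l U) {Y v : ℂ} {s T : ℝ}
    (hT : s ≤ T) (hU : ∀ t ∈ Icc s T, Y + t * v ∈ U) {B b : ℝ → ℝ}
    (hB : ∀ t ∈ Icc s T, HasDerivAt B (b t) t)
    (hb : ∀ t ∈ Icc s T, 130 / ‖Y + t * v‖ * ‖v‖ ≤ b t) :
    ‖nd k l (Y + T * v)‖ ≤ ‖nd k l (Y + s * v)‖ * Real.exp (B T - B s) ∧
      ‖nd k l (Y + s * v)‖ ≤ ‖nd k l (Y + T * v)‖ * Real.exp (B T - B s) := by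
  refine gron (φ := fun t : ℝ => nd k l (Y + t * v))
    (c := fun t : ℝ => cf (Y + t * v) (k (Y + t * v)) (l (Y + t * v)) * v) hT (fun t ht => ?_) hB
    fun t ht => ?_
  · have := (hk.hasDerivAt_nd hl (hU t ht)).comp (t : ℂ)
      (((hasDerivAt_id (t : ℂ)).mul_const v).const_add Y)
    exact this.comp_ofReal.congr_deriv (by ring)
  · rw [norm_mul]
    exact (mul_le_mul_of_nonneg_right (hk.cf_le hl (hU t ht)) (norm_nonneg _)).trans (hb t ht)

/-- comparison along a vertical segment which starts on the real axis -/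
theorem Sol.vert {k l : ℂ → ℂ} {U : Set ℂ} (hk : Sol k U) (hl : Sol l U) {Y : ℂ}
    (hU : ∀ t ∈ Icc (0 : ℝ) 1, (Y.re : ℂ) + t * (Y.im * Complex.I) ∈ U) (hY : |Y.im| ≤ |Y.re|) :
    ‖nd k l Y‖ ≤ ‖nd k l Y.re‖ * Real.exp 130 ∧ ‖nd k l Y.re‖ ≤ ‖nd k l Y‖ * Real.exp 130 := by
  have := hk.seg hl zero_le_one hU (B := fun t => 130 * t) (b := fun _ => 130)
    (fun t _ => by simpa using (hasDerivAt_id t).const_mul 130) fun t ht => by
      have h1 : |Y.re| ≤ ‖(Y.re : ℂ) + t * (Y.im * Complex.I)‖ := by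
        simpa using Complex.abs_re_le_norm ((Y.re : ℂ) + t * (Y.im * Complex.I))
      have h2 : 0 < ‖(Y.re : ℂ) + t * (Y.im * Complex.I)‖ :=
        lt_of_lt_of_le (by norm_num) (hk.far _ (hU t ht))
      rw [div_mul_eq_mul_div, div_le_iff₀ h2, norm_mul, Complex.norm_I, Complex.norm_real,
        Real.norm_eq_abs]
      linarith
  simpa using this

/-- the domain of the solution which is bounded in the direction `1 + σ i`, `σ = ± 1` -/
def DD (σ : ℝ) : Set ℂ := {Y | 256000 < Y.re + σ * Y.im ∨ 256000 < |Y.im - σ * Y.re|}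

theorem dom_DD {σ : ℝ} (hσ : σ = 1 ∨ σ = -1) : Dom (DD σ) (1 + σ * Complex.I) where
  op := (isOpen_lt (g := fun Y : ℂ => Y.re + σ * Y.im) continuous_const (by fun_prop)).union
    (isOpen_lt (g := fun Y : ℂ => |Y.im - σ * Y.re|) continuous_const (by fun_prop))
  re := by simp
  nrm := (norm_add_le _ _).trans (by rcases hσ with rfl | rfl <;> norm_num)
  inv Y hY t ht := by
    rcases hY with h | h
    · left
      rcases hσ with rfl | rfl <;> simp at h ⊢ <;> linarith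
    · right
      convert h using 2
      simp
      ring
  far Y hY := by
    have h1 := abs_le.1 (Complex.abs_re_le_norm Y)
    have h2 := abs_le.1 (Complex.abs_im_le_norm Y)
    rcases hY with h | h
    · rcases hσ with rfl | rfl <;> linarith [h1.2, h2.1, h2.2]
    · rcases hσ with rfl | rfl <;> rcases lt_abs.1 h with h | h <;>
        linarith [h1.1, h1.2, h2.1, h2.2]

theorem exists_DD {σ : ℝ} (hσ : σ = 1 ∨ σ = -1) : ∃ k, Sol k (DD σ) := by
  obtain ⟨k, a, b⟩ := (dom_DD hσ).exists_sol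
  exact ⟨k, (dom_DD hσ).far, a, b⟩

/-- the right wedge -/
def WR : Set ℂ := {Y | 256000 + |Y.im| < Y.re}

/-- the left wedge -/
def WL : Set ℂ := {Y | 256000 + |Y.im| < -Y.re}

theorem WR_sub {σ : ℝ} (hσ : σ = 1 ∨ σ = -1) : WR ⊆ DD σ := fun Y hY => by
  have h : 256000 + |Y.im| < Y.re := hY
  left
  rcases hσ with rfl | rfl <;> linarith [le_abs_self Y.im, neg_abs_le Y.im]

theorem WL_sub {σ : ℝ} (hσ : σ = 1 ∨ σ = -1) : WL ⊆ DD σ := fun Y hY => by
  have h : 256000 + |Y.im| < -Y.re := hY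
  right
  rw [lt_abs]
  rcases hσ with rfl | rfl
  · left; linarith [le_abs_self Y.im, neg_abs_le Y.im]
  · right; linarith [le_abs_self Y.im, neg_abs_le Y.im]

theorem abs_vert (Y : ℂ) {t : ℝ} (ht : t ∈ Icc (0 : ℝ) 1) :
    |((Y.re : ℂ) + t * (Y.im * Complex.I)).im| ≤ |Y.im| ∧
      ((Y.re : ℂ) + t * (Y.im * Complex.I)).re = Y.re := by
  refine ⟨?_, by simp⟩
  simp only [Complex.add_im, Complex.ofReal_im, Complex.mul_im, Complex.ofReal_re, Complex.I_im,
    Complex.I_re, Complex.mul_re, mul_one, mul_zero, add_zero, zero_add, zero_mul, abs_mul,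
    abs_of_nonneg ht.1]
  exact mul_le_of_le_one_left (abs_nonneg _) ht.2

/-- two small solutions agree on the right wedge -/
theorem eq_right {k l : ℂ → ℂ} (hk : Sol k WR) (hl : Sol l WR) {Y : ℂ} (hY : Y ∈ WR) :
    k Y = l Y := by
  have hY' : 256000 + |Y.im| < Y.re := hY
  have a0 := abs_nonneg Y.im
  have ray : ∀ t : ℝ, 0 ≤ t → (Y.re : ℂ) + t * 1 ∈ WR := fun t ht => by
    simp only [WR, mem_ofPred_eq]; simp; linarith
  have r0 : nd k l Y.re = 0 := by
    rw [← norm_le_zero_iff]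
    have lim : Tendsto (fun T : ℝ => Real.exp (-(1 / 8) * T)) atTop (𝓝 0) :=
      Real.tendsto_exp_atBot.comp (tendsto_id.const_mul_atTop_of_neg (by norm_num))
    refine ge_of_tendsto lim ?_
    filter_upwards [eventually_ge_atTop 0] with T hT
    have f := hk.far _ (ray T hT)
    have p : 0 < ‖(Y.re : ℂ) + T * 1‖ := lt_of_lt_of_le (by norm_num) f
    have h1 := (hk.seg hl hT (fun t ht => ray t ht.1) (B := fun t => 1 / 8 * t)
      (b := fun _ => 1 / 8) (fun t _ => by simpa using (hasDerivAt_id t).const_mul (1 / 8 : ℝ))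
      fun t ht => by
        have f := hk.far _ (ray t ht.1)
        rw [norm_one, mul_one, div_le_iff₀ (lt_of_lt_of_le (by norm_num) f)]
        linarith).2
    have h2 : ‖k (Y.re + T * 1) - l (Y.re + T * 1)‖ ≤ 1 := by
      have a1 : 128 / ‖(Y.re : ℂ) + T * 1‖ ≤ 1 / 2 := by rw [div_le_iff₀ p]; linarith
      linarith [norm_sub_le (k (Y.re + T * 1)) (l (Y.re + T * 1)), hk.bd _ (ray T hT),
        hl.bd _ (ray T hT)]
    rw [norm_nd k l (Y.re + T * 1)] at h1
    simp only [Complex.ofReal_zero, mul_one, add_zero, mul_zero, sub_zero, Complex.add_re,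
      Complex.ofReal_re] at h1 h2
    refine h1.trans ?_
    calc _ ≤ Real.exp (-(Y.re + T) / 4) * 1 * Real.exp (1 / 8 * T) := by gcongr
      _ ≤ _ := by rw [mul_one, ← Real.exp_add]; exact Real.exp_le_exp.2 (by linarith)
  have h3 := (hk.vert hl (Y := Y) (fun t ht => by
    simp only [WR, mem_ofPred_eq]
    linarith [(abs_vert Y ht).1, (abs_vert Y ht).2]) (by linarith [le_abs_self Y.re])).1
  rw [r0, norm_zero, zero_mul, norm_le_zero_iff, nd, mul_eq_zero] at h3
  exact sub_eq_zero.1 (h3.resolve_left (Complex.exp_ne_zero _))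

/-- comparison on the left wedge with a base point -/
theorem left_cmp {k l : ℂ → ℂ} (hk : Sol k WL) (hl : Sol l WL) {Y : ℂ}
    (hY : 256001 + |Y.im| ≤ -Y.re) :
    ‖nd k l Y‖ ≤ ‖nd k l (-256001)‖ * (-Y.re) ^ 130 * Real.exp 130 ∧
      ‖nd k l (-256001)‖ ≤ ‖nd k l Y‖ * (-Y.re) ^ 130 * Real.exp 130 := by
  have a0 := abs_nonneg Y.im
  have v := hk.vert hl (Y := Y) (fun t ht => by
    simp only [WL, mem_ofPred_eq]
    linarith [(abs_vert Y ht).1, (abs_vert Y ht).2]) (by linarith [neg_le_abs Y.re])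
  have hX : 256001 ≤ -Y.re := by linarith
  have w := hk.seg hl (Y := 0) (v := -1) hX (fun t ht => by
      simp only [WL, mem_ofPred_eq]; simp; linarith [ht.1])
    (B := fun t => 130 * Real.log t) (b := fun t => 130 * t⁻¹)
    (fun t ht => (Real.hasDerivAt_log (by linarith [ht.1])).const_mul 130) fun t ht => by
      have : 0 < t := by linarith [ht.1]
      simp [abs_of_pos this, div_eq_mul_inv]
  have e : Real.exp (130 * Real.log (-Y.re) - 130 * Real.log 256001) ≤ (-Y.re) ^ 130 := by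
    have : 0 ≤ Real.log 256001 := Real.log_nonneg (by norm_num)
    calc _ ≤ Real.exp (((130 : ℕ) : ℝ) * Real.log (-Y.re)) :=
          Real.exp_le_exp.2 (by push_cast; linarith)
      _ = _ := by rw [Real.exp_nat_mul, Real.exp_log (by linarith)]
  simp only [zero_add, mul_neg, mul_one, Complex.ofReal_neg, neg_neg, Complex.ofReal_ofNat] at w
  have p : 0 ≤ (-Y.re) ^ 130 := by positivity
  constructor
  · refine v.1.trans ?_
    gcongr
    exact w.1.trans (by gcongr)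
  · refine w.2.trans ?_
    calc _ ≤ (‖nd k l Y‖ * Real.exp 130) * (-Y.re) ^ 130 := by gcongr; exact v.2
      _ = _ := by ring

theorem mem_DD_of_im {Y : ℂ} (hY : 256000 < ‖Y‖) :
    (0 ≤ Y.im → Y ∈ DD 1) ∧ (Y.im ≤ 0 → Y ∈ DD (-1)) := by
  have h := hY.trans_le (Complex.norm_le_abs_re_add_abs_im Y)
  constructor <;> intro h1
  · rw [abs_of_nonneg h1] at h
    rcases le_total 0 Y.re with h2 | h2
    · left; rw [abs_of_nonneg h2] at h; linarith
    · right; rw [abs_of_nonpos h2] at h; exact lt_abs.2 (.inl (by linarith))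
  · rw [abs_of_nonpos h1] at h
    rcases le_total 0 Y.re with h2 | h2
    · left; rw [abs_of_nonneg h2] at h; linarith
    · right; rw [abs_of_nonpos h2] at h; exact lt_abs.2 (.inr (by linarith))

/-- the Stokes constant is not zero -/
theorem nd_ne {k l : ℂ → ℂ} (hk : Sol k (DD 1)) (hl : Sol l (DD (-1))) :
    nd k l (-256001) ≠ 0 := by
  classical
  intro h0
  have p1 : (1 : ℝ) = 1 ∨ (1 : ℝ) = -1 := .inl rfl
  have m1 : (-1 : ℝ) = 1 ∨ (-1 : ℝ) = -1 := .inr rfl
  have eL : ∀ Y : ℂ, 256001 + |Y.im| ≤ -Y.re → k Y = l Y := fun Y hY => by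
    have h3 := (left_cmp (hk.mono (WL_sub p1)) (hl.mono (WL_sub m1)) hY).1
    rw [h0, norm_zero, zero_mul, zero_mul, norm_le_zero_iff, nd, mul_eq_zero] at h3
    exact sub_eq_zero.1 (h3.resolve_left (Complex.exp_ne_zero _))
  have eR : ∀ Y ∈ WR, k Y = l Y := fun Y hY =>
    eq_right (hk.mono (WR_sub p1)) (hl.mono (WR_sub m1)) hY
  let g : ℂ → ℂ := fun Y => if 0 ≤ Y.im then k Y else l Y
  have ev : ∀ Y : ℂ, 256001 < ‖Y‖ →
      (Y ∈ DD 1 ∧ g =ᶠ[𝓝 Y] k) ∨ (Y ∈ DD (-1) ∧ g =ᶠ[𝓝 Y] l) := fun Y hY => by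
    have m := mem_DD_of_im (Y := Y) (by linarith)
    have same : ∀ {S : Set ℂ}, S ∈ 𝓝 Y → (∀ z ∈ S, k z = l z) → g =ᶠ[𝓝 Y] k := fun hS h => by
      filter_upwards [hS] with z hz
      simp [g, h z hz]
    rcases lt_trichotomy Y.im 0 with h | h | h
    · refine .inr ⟨m.2 h.le, ?_⟩
      filter_upwards [(isOpen_lt Complex.continuous_im continuous_const).mem_nhds h] with z hz
      simp [g, not_le.2 hz]
    · refine .inl ⟨m.1 h.ge, ?_⟩
      have h2 := hY.trans_le (Complex.norm_le_abs_re_add_abs_im Y)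
      rw [h, abs_zero, add_zero] at h2
      rcases lt_abs.1 h2 with h3 | h3
      · refine same ((isOpen_lt (f := fun z : ℂ => 256000 + |z.im|) (by fun_prop)
          Complex.continuous_re).mem_nhds ?_) eR
        simp [h]; linarith
      · refine same ((isOpen_lt (f := fun z : ℂ => 256001 + |z.im|) (g := fun z : ℂ => -z.re)
          (by fun_prop) (by fun_prop)).mem_nhds ?_) fun z hz => eL z (le_of_lt hz)
        simp [h]; linarith
    · refine .inl ⟨m.1 h.le, ?_⟩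
      filter_upwards [(isOpen_lt continuous_const Complex.continuous_im).mem_nhds h] with z hz
      simp [g, hz.le]
  refine no_entire (k := g) (C := 256001) (K := 128) (by norm_num) (fun Y hY => ?_) fun Y hY => ?_
  · rcases ev Y hY with ⟨a, b⟩ | ⟨a, b⟩
    · rw [b.self_of_nhds]; exact (hk.der Y a).congr_of_eventuallyEq b
    · rw [b.self_of_nhds]; exact (hl.der Y a).congr_of_eventuallyEq b
  · rcases ev Y hY with ⟨a, b⟩ | ⟨a, b⟩
    · rw [b.self_of_nhds]; exact hk.bd Y a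
    · rw [b.self_of_nhds]; exact hl.bd Y a

/-- **The Stokes phenomenon of the inner equation.** -/
theorem stokes : ∃ (k l : ℂ → ℂ) (c : ℝ), 0 < c ∧ Sol k (DD 1) ∧ Sol l (DD (-1)) ∧
    ∀ Y : ℂ, 256001 + |Y.im| ≤ -Y.re →
      c * Real.exp (Y.re / 4) ≤ ‖k Y - l Y‖ * (-Y.re) ^ 130 ∧
      c * ‖k Y - l Y‖ ≤ Real.exp (Y.re / 4) * (-Y.re) ^ 130 := by
  have p1 : (1 : ℝ) = 1 ∨ (1 : ℝ) = -1 := .inl rfl
  have m1 : (-1 : ℝ) = 1 ∨ (-1 : ℝ) = -1 := .inr rfl
  obtain ⟨k, hk⟩ := exists_DD p1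
  obtain ⟨l, hl⟩ := exists_DD m1
  have n0 := norm_pos_iff.2 (nd_ne hk hl)
  set n := ‖nd k l (-256001)‖
  have E := Real.exp_pos 130
  refine ⟨k, l, min (n / Real.exp 130) (n * Real.exp 130)⁻¹, by positivity, hk, hl,
    fun Y hY => ?_⟩
  obtain ⟨a, b⟩ := left_cmp (hk.mono (WL_sub p1)) (hl.mono (WL_sub m1)) hY
  rw [norm_nd k l Y] at a b
  have e : Real.exp (-Y.re / 4) * Real.exp (Y.re / 4) = 1 := by
    rw [← Real.exp_add]; ring_nf; simp
  have q := Real.exp_pos (Y.re / 4)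
  constructor
  · refine (mul_le_mul_of_nonneg_right (min_le_left _ _) q.le).trans ?_
    rw [div_mul_eq_mul_div, div_le_iff₀ E]
    refine (mul_le_mul_of_nonneg_right b q.le).trans (le_of_eq ?_)
    linear_combination (‖k Y - l Y‖ * (-Y.re) ^ 130 * Real.exp 130) * e
  · refine (mul_le_mul_of_nonneg_right (min_le_right _ _) (norm_nonneg _)).trans ?_
    rw [inv_mul_le_iff₀ (by positivity)]
    refine le_trans (le_of_eq ?_) ((mul_le_mul_of_nonneg_right a q.le).trans (le_of_eq ?_))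
    · linear_combination (-‖k Y - l Y‖) * e
    · ring

end Vale.Agent.P218N.Stokes
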