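import Mathlib.Analysis.Complex.Liouville
import Mathlib.Analysis.Complex.RemovableSingularity
import Mathlib.Analysis.Calculus.IteratedDeriv.Lemmas
import Mathlib.RingTheory.PowerSeries.Derivative
import Mathlib.Analysis.Complex.Order

/-!
# P218N, Stokes constant: the formal solution of the inner equation diverges

The inner equation is `4 k' = k (1 - k)² + 2 (1 - 2 k) / Y`. It has no solution which is
holomorphic near infinity and vanishes there.
-/

open Filter Topology Set Metric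
open scoped ComplexOrder

noncomputable section

namespace Vale.Agent.P218N.Stokes

/-- the right hand side of the inner equation -/
def rhs (Y k : ℂ) : ℂ := (k * (1 - k) ^ 2 + 2 * (1 - 2 * k) / Y) / 4

/-- Taylor series at the origin -/
def tay (f : ℂ → ℂ) : PowerSeries ℂ :=
  PowerSeries.mk fun n => iteratedDeriv n f 0 / (n.factorial : ℂ)

theorem coeff_tay (f : ℂ → ℂ) (n : ℕ) :
    PowerSeries.coeff n (tay f) = iteratedDeriv n f 0 / (n.factorial : ℂ) := by
  simp [tay]

theorem tay_congr {f g : ℂ → ℂ} (h : f =ᶠ[𝓝 0] g) : tay f = tay g := by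
  ext n; rw [coeff_tay, coeff_tay, (h.iteratedDeriv n).self_of_nhds]

theorem tay_add {f g : ℂ → ℂ} (hf : AnalyticAt ℂ f 0) (hg : AnalyticAt ℂ g 0) :
    tay (f + g) = tay f + tay g := by
  ext n
  rw [map_add, coeff_tay, coeff_tay, coeff_tay,
    iteratedDeriv_add hf.contDiffAt hg.contDiffAt, add_div]

theorem tay_mul {f g : ℂ → ℂ} (hf : AnalyticAt ℂ f 0) (hg : AnalyticAt ℂ g 0) :
    tay (f * g) = tay f * tay g := by
  ext n
  rw [PowerSeries.coeff_mul, coeff_tay, iteratedDeriv_mul hf.contDiffAt hg.contDiffAt,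
    Finset.Nat.sum_antidiagonal_eq_sum_range_succ_mk, Finset.sum_div]
  refine Finset.sum_congr rfl fun i hi => ?_
  have hi' : i ≤ n := Nat.lt_succ_iff.1 (Finset.mem_range.1 hi)
  have e := Nat.choose_mul_factorial_mul_factorial hi'
  have e' : (n.factorial : ℂ) = n.choose i * i.factorial * (n - i).factorial := by
    exact_mod_cast e.symm
  have h1 : (n.choose i : ℂ) ≠ 0 := by exact_mod_cast (Nat.choose_pos hi').ne'
  have h2 : (i.factorial : ℂ) ≠ 0 := by exact_mod_cast i.factorial_ne_zero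
  have h3 : ((n - i).factorial : ℂ) ≠ 0 := by exact_mod_cast (n - i).factorial_ne_zero
  simp only [coeff_tay]
  rw [e']
  field_simp

theorem tay_const (c : ℂ) : tay (fun _ => c) = PowerSeries.C c := by
  ext n
  rw [coeff_tay, PowerSeries.coeff_C, iteratedDeriv_const]
  split_ifs with h
  · simp [h]
  · simp

theorem tay_id : tay (fun z => z) = PowerSeries.X := by
  ext n
  rw [coeff_tay, PowerSeries.coeff_X, iteratedDeriv_fun_id]
  split_ifs with h h' h'
  · omega
  · simp
  · simp [h']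
  · simp

theorem coeff_tay_deriv (f : ℂ → ℂ) (n : ℕ) :
    PowerSeries.coeff n (tay (deriv f)) = (n + 1) * PowerSeries.coeff (n + 1) (tay f) := by
  rw [coeff_tay, coeff_tay, iteratedDeriv_succ', Nat.factorial_succ]
  have h2 : (n.factorial : ℂ) ≠ 0 := by exact_mod_cast n.factorial_ne_zero
  have h3 : ((n : ℂ) + 1) ≠ 0 := by exact_mod_cast n.succ_ne_zero
  push_cast
  field_simp

/-- positivity of the coefficients of the formal solution -/
theorem coeff_pos {c s t : ℕ → ℂ} (h0 : c 0 = 0)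
    (hs : ∀ n, s n = ∑ p ∈ Finset.antidiagonal n, c p.1 * c p.2)
    (ht : ∀ n, t n = ∑ p ∈ Finset.antidiagonal n, c p.1 * s p.2)
    (hr : ∀ n, c (n + 1) = (if n = 0 then 2 else 0) + 4 * ((n : ℂ) - 1) * c n
      + 2 * s (n + 1) - t (n + 1)) (n : ℕ) :
    (∀ m ≤ n, 0 ≤ c m ∧ s m ≤ c m) ∧
      (if n = 0 then 2 else 0) + 4 * ((n : ℂ) - 1) * c n + s (n + 1) ≤ c (n + 1) ∧
      0 ≤ s (n + 1) := by
  have s0 : s 0 = 0 := by simp [hs, h0]
  have key : ∀ n, (∀ m ≤ n, 0 ≤ c m ∧ s m ≤ c m) →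
      (if n = 0 then 2 else 0) + 4 * ((n : ℂ) - 1) * c n + s (n + 1) ≤ c (n + 1) ∧
        0 ≤ s (n + 1) := by
    intro n ih
    have a1 : t (n + 1) ≤ s (n + 1) := by
      rw [ht, hs (n + 1)]
      refine Finset.sum_le_sum fun p hp => ?_
      have hp' := Finset.mem_antidiagonal.1 hp
      rcases Nat.eq_zero_or_pos p.1 with h | h
      · simp [h, h0]
      rcases Nat.eq_zero_or_pos p.2 with h' | h'
      · simp [h', h0, s0]
      exact mul_le_mul_of_nonneg_left (ih _ (by omega)).2 (ih _ (by omega)).1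
    have a2 : 0 ≤ s (n + 1) := by
      rw [hs]
      refine Finset.sum_nonneg fun p hp => ?_
      have hp' := Finset.mem_antidiagonal.1 hp
      rcases Nat.eq_zero_or_pos p.1 with h | h
      · simp [h, h0]
      rcases Nat.eq_zero_or_pos p.2 with h' | h'
      · simp [h', h0]
      exact mul_nonneg (ih _ (by omega)).1 (ih _ (by omega)).1
    refine ⟨?_, a2⟩
    rw [hr n, ← sub_nonneg]
    have := sub_nonneg.2 a1
    convert this using 1
    ring
  have all : ∀ n, ∀ m ≤ n, 0 ≤ c m ∧ s m ≤ c m := by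
    intro n
    induction n with
    | zero => intro m hm; obtain rfl : m = 0 := by omega
              simp [h0, s0]
    | succ n ih =>
      intro m hm
      rcases Nat.lt_or_ge m (n + 1) with h | h
      · exact ih m (by omega)
      obtain rfl : m = n + 1 := by omega
      obtain ⟨k1, k2⟩ := key n ih
      have k3 : (0 : ℂ) ≤ (if n = 0 then 2 else 0) + 4 * ((n : ℂ) - 1) * c n := by
        rcases n with _ | n
        · simp [h0]
        · have : (0 : ℂ) ≤ 4 * (n : ℂ) * c (n + 1) :=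
            mul_nonneg (mul_nonneg (by norm_num) (Nat.cast_nonneg n)) (ih _ le_rfl).1
          simpa using this
      have k4 : s (n + 1) ≤ c (n + 1) := (le_add_of_nonneg_left k3).trans k1
      exact ⟨k2.trans k4, k4⟩
  exact ⟨all n, key n (all n)⟩

/-- growth of the coefficients -/
theorem not_bounded {c s t : ℕ → ℂ} (h0 : c 0 = 0)
    (hs : ∀ n, s n = ∑ p ∈ Finset.antidiagonal n, c p.1 * c p.2)
    (ht : ∀ n, t n = ∑ p ∈ Finset.antidiagonal n, c p.1 * s p.2)
    (hr : ∀ n, c (n + 1) = (if n = 0 then 2 else 0) + 4 * ((n : ℂ) - 1) * c n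
      + 2 * s (n + 1) - t (n + 1)) {R M : ℝ} (hR : 0 < R) (hM : ∀ n, ‖c n‖ ≤ M / R ^ n) :
    False := by
  have P := coeff_pos h0 hs ht hr
  have g : ∀ n : ℕ, 4 * (n : ℝ) * (c (n + 1)).re ≤ (c (n + 2)).re := fun n => by
    have h1 := (Complex.le_def.1 (P (n + 1)).2.1).1
    have h2 := (Complex.le_def.1 (P (n + 1)).2.2).1
    simp at h1 h2
    linarith
  have c1 : 2 ≤ (c 1).re := by
    have h1 := (Complex.le_def.1 (P 0).2.1).1
    have h2 := (Complex.le_def.1 (P 0).2.2).1
    simp [h0] at h1 h2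
    linarith
  have c2 : 0 < (c 2).re := by
    have h1 := (Complex.le_def.1 ((P 2).1 2 le_rfl).2).1
    have h2 := (Complex.le_def.1 ((P 1).1 1 le_rfl).1).2
    have h3 : s 2 = c 1 * c 1 := by
      rw [hs, Finset.Nat.sum_antidiagonal_eq_sum_range_succ_mk]
      simp [Finset.sum_range_succ, h0]
    rw [h3, Complex.mul_re] at h1
    simp at h2
    rw [← h2] at h1
    nlinarith
  have pos : ∀ n, 0 < (c (n + 2)).re := fun n => by
    induction n with
    | zero => exact c2
    | succ n ih =>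
      refine lt_of_lt_of_le ?_ (g (n + 1))
      positivity
  obtain ⟨N, hN⟩ := exists_nat_gt (1 / R)
  have hN' : 1 ≤ (N : ℝ) * R := by rw [div_lt_iff₀ hR] at hN; exact hN.le
  set a : ℕ → ℝ := fun j => (c (N + j + 2)).re * R ^ (N + j + 2) with ha
  have a0 : 0 < a 0 := mul_pos (pos _) (pow_pos hR _)
  have gr : ∀ j : ℕ, (j + 1 : ℝ) * a 0 ≤ a j := fun j => by
    induction j with
    | zero => simp
    | succ j ih =>
      have h1 := g (N + j + 1)
      have h2 := pos (N + j)
      have h3 : 2 * a j ≤ a (j + 1) := by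
        have e1 : a (j + 1) = (c (N + j + 1 + 2)).re * R * R ^ (N + j + 2) := by
          simp only [ha]; rw [show N + (j + 1) + 2 = N + j + 2 + 1 by ring, pow_succ]; ring_nf
        have e2 : 2 * a j = 2 * (c (N + j + 2)).re * R ^ (N + j + 2) := by simp only [ha]; ring
        rw [e1, e2]
        refine mul_le_mul_of_nonneg_right ?_ (pow_pos hR _).le
        have h4 : (2 : ℝ) ≤ 4 * ((N + j + 1 : ℕ) : ℝ) * R := by
          push_cast
          nlinarith [mul_nonneg (Nat.cast_nonneg (α := ℝ) j) hR.le]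
        calc 2 * (c (N + j + 2)).re ≤ (4 * ((N + j + 1 : ℕ) : ℝ) * R) * (c (N + j + 2)).re :=
              mul_le_mul_of_nonneg_right h4 h2.le
          _ = (4 * ((N + j + 1 : ℕ) : ℝ) * (c (N + j + 1 + 1)).re) * R := by ring_nf
          _ ≤ _ := mul_le_mul_of_nonneg_right h1 hR.le
      have : 0 ≤ (j : ℝ) * a 0 := by positivity
      push_cast
      nlinarith
  have bd : ∀ j, a j ≤ M := fun j => by
    have h1 := (Complex.re_le_norm _).trans (hM (N + j + 2))
    rwa [le_div_iff₀ (pow_pos hR _)] at h1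
  obtain ⟨j, hj⟩ := exists_nat_gt (M / a 0)
  rw [div_lt_iff₀ a0] at hj
  nlinarith [gr j, bd j]

/-- no solution is holomorphic near infinity -/
theorem no_entire {k : ℂ → ℂ} {C K : ℝ} (hC : 0 < C)
    (hk : ∀ Y : ℂ, C < ‖Y‖ → HasDerivAt k (rhs Y (k Y)) Y)
    (hb : ∀ Y : ℂ, C < ‖Y‖ → ‖k Y‖ ≤ K / ‖Y‖) : False := by
  classical
  set κ : ℂ → ℂ := fun τ => if τ = 0 then 0 else k (-τ⁻¹) with hκ
  have nrm : ∀ τ : ℂ, τ ≠ 0 → ‖τ‖ < C⁻¹ → C < ‖-τ⁻¹‖ := fun τ h0 h => by
    rw [norm_neg, norm_inv]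
    exact (lt_inv_comm₀ hC (norm_pos_iff.2 h0)).2 h
  have bd : ∀ τ : ℂ, ‖τ‖ < C⁻¹ → ‖κ τ‖ ≤ K * ‖τ‖ := fun τ h => by
    by_cases h0 : τ = 0
    · simp [hκ, h0]
    · have := hb _ (nrm τ h0 h)
      rw [norm_neg, norm_inv, div_inv_eq_mul] at this
      simpa [hκ, h0] using this
  have der : ∀ τ : ℂ, τ ≠ 0 → ‖τ‖ < C⁻¹ →
      HasDerivAt κ (rhs (-τ⁻¹) (κ τ) * (τ ^ 2)⁻¹) τ := fun τ h0 h => by
    have h1 := (hk _ (nrm τ h0 h)).comp τ ((hasDerivAt_inv h0).neg)
    have h2 : κ τ = k (-τ⁻¹) := by simp [hκ, h0]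
    rw [h2]
    refine (h1.congr_deriv (by ring)).congr_of_eventuallyEq ?_
    filter_upwards [isOpen_ne.mem_nhds h0] with z hz
    simp [hκ, hz]
  have Ci : 0 < C⁻¹ := inv_pos.2 hC
  have cont : ContinuousAt κ 0 := by
    have : κ 0 = 0 := by simp [hκ]
    rw [ContinuousAt, this]
    refine squeeze_zero_norm' (a := fun τ => K * ‖τ‖) ?_ ?_
    · filter_upwards [ball_mem_nhds (0 : ℂ) Ci] with τ h using bd τ (mem_ball_zero_iff.1 h)
    · have : Continuous fun τ : ℂ => K * ‖τ‖ := by fun_prop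
      simpa using this.tendsto 0
  have dif : DifferentiableOn ℂ κ (ball 0 C⁻¹) := by
    rw [← Complex.differentiableOn_compl_singleton_and_continuousAt_iff (ball_mem_nhds _ Ci)]
    exact ⟨fun τ h => (der τ h.2 (mem_ball_zero_iff.1 h.1)).differentiableAt.differentiableWithinAt,
      cont⟩
  have an : AnalyticAt ℂ κ 0 := dif.analyticAt (ball_mem_nhds _ Ci)
  have an' : AnalyticAt ℂ (deriv κ) 0 := an.deriv
  have aid : AnalyticAt ℂ (fun z : ℂ => z) 0 := analyticAt_id
  have ac : ∀ c : ℂ, AnalyticAt ℂ (fun _ : ℂ => c) 0 := fun c => analyticAt_const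
  have eqn : κ + κ * (κ * κ) + (fun _ => 4) * ((fun z => z) * κ) =ᶠ[𝓝 0]
      (fun _ => 2) * (fun z => z) + (fun _ => 4) * ((fun z => z) * ((fun z => z) * deriv κ))
        + (fun _ => 2) * (κ * κ) := by
    filter_upwards [ball_mem_nhds (0 : ℂ) Ci] with τ h
    by_cases h0 : τ = 0
    · simp [hκ, h0]
    · simp only [Pi.add_apply, Pi.mul_apply, (der τ h0 (mem_ball_zero_iff.1 h)).deriv, rhs]
      field_simp
      ring
  have E := tay_congr eqn
  rw [tay_add (an.add (an.mul (an.mul an))) ((ac 4).mul (aid.mul an)),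
    tay_add an (an.mul (an.mul an)), tay_mul an (an.mul an), tay_mul an an,
    tay_mul (ac 4) (aid.mul an), tay_mul aid an,
    tay_add (((ac 2).mul aid).add ((ac 4).mul (aid.mul (aid.mul an')))) ((ac 2).mul (an.mul an)),
    tay_add ((ac 2).mul aid) ((ac 4).mul (aid.mul (aid.mul an'))), tay_mul (ac 2) aid,
    tay_mul (ac 4) (aid.mul (aid.mul an')), tay_mul aid (aid.mul an'), tay_mul aid an',
    tay_mul (ac 2) (an.mul an), tay_mul an an, tay_const, tay_const, tay_id] at E
  have hR : 0 < C⁻¹ / 2 := half_pos Ci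
  refine not_bounded (c := fun n => PowerSeries.coeff n (tay κ))
    (s := fun n => PowerSeries.coeff n (tay κ * tay κ))
    (t := fun n => PowerSeries.coeff n (tay κ * (tay κ * tay κ))) ?_
    (fun n => PowerSeries.coeff_mul _ _ _) (fun n => PowerSeries.coeff_mul _ _ _) (fun n => ?_)
    hR (M := K * (C⁻¹ / 2)) fun n => ?_
  · simp [coeff_tay, hκ]
  · have e := congrArg (PowerSeries.coeff (n + 1)) E
    have e2 : PowerSeries.coeff n (PowerSeries.X * tay (deriv κ))
        = n * PowerSeries.coeff n (tay κ) := by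
      rcases n with _ | n
      · simp
      · rw [PowerSeries.coeff_succ_X_mul, coeff_tay_deriv]; push_cast; ring
    simp only [map_add, PowerSeries.coeff_C_mul, PowerSeries.coeff_succ_X_mul, e2,
      PowerSeries.coeff_X] at e
    have e3 : (if n + 1 = 1 then (1 : ℂ) else 0) * 2 = if n = 0 then 2 else 0 := by
      by_cases h : n = 0 <;> simp [h]
    linear_combination e + e3
  · have h1 := Complex.norm_iteratedDeriv_le_of_forall_mem_sphere_norm_le (f := κ) (c := 0)
      (C := K * (C⁻¹ / 2)) n hR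
      ((dif.mono (closedBall_subset_ball (half_lt_self Ci))).diffContOnCl_ball subset_rfl)
      (fun z hz => by
        have := mem_sphere_zero_iff_norm.1 hz
        rw [← this]
        exact bd z (by rw [this]; exact half_lt_self Ci))
    have h2 : (0 : ℝ) < n.factorial := by exact_mod_cast n.factorial_pos
    simp only [coeff_tay]
    rw [norm_div, Complex.norm_natCast, div_le_iff₀ h2]
    refine h1.trans_eq ?_
    ring

end Vale.Agent.P218N.Stokes
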