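import Vale.Agent.P218N.Stokes.Diverge
import Mathlib.Analysis.Calculus.ParametricIntegral
import Mathlib.Analysis.SpecialFunctions.ImproperIntegrals
import Mathlib.Analysis.Complex.LocallyUniformLimit

/-!
# P218N, Stokes constant: solutions of the inner equation on domains invariant under a translation
-/

open Filter Topology Set Metric MeasureTheory

noncomputable section

namespace Vale.Agent.P218N.Stokes

/-- an open set far from the origin, which is invariant under the translations by `t e` -/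
structure Dom (D : Set ℂ) (e : ℂ) : Prop where
  op : IsOpen D
  re : e.re = 1
  nrm : ‖e‖ ≤ 2
  inv : ∀ Y ∈ D, ∀ t : ℝ, 0 ≤ t → Y + t * e ∈ D
  far : ∀ Y ∈ D, 128000 ≤ ‖Y‖

/-- the solution of `u' = u / 4 + g` which is bounded in the direction `e` -/
def lap (e : ℂ) (g : ℂ → ℂ) (Y : ℂ) : ℂ :=
  -∫ t in Ioi (0 : ℝ), Complex.exp (-(t * e) / 4) * g (Y + t * e) * e

namespace Dom

variable {D : Set ℂ} {e : ℂ} (h : Dom D e)
include h

theorem pos {Y : ℂ} (hY : Y ∈ D) : 0 < ‖Y‖ := lt_of_lt_of_le (by norm_num) (h.far Y hY)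

theorem norm_exp (t : ℝ) : ‖Complex.exp (-(t * e) / 4)‖ = Real.exp (-(1 / 4) * t) := by
  rw [Complex.norm_exp]
  congr 1
  simp [h.re]
  ring

theorem cont {g : ℂ → ℂ} (hg : ContinuousOn g D) {Y : ℂ} (hY : Y ∈ D) :
    ContinuousOn (fun t : ℝ => Complex.exp (-(t * e) / 4) * g (Y + t * e) * e) (Ici 0) := by
  refine ContinuousOn.mul (ContinuousOn.mul (by fun_prop) ?_) continuousOn_const
  exact hg.comp (by fun_prop) fun t ht => h.inv Y hY t ht

theorem meas {g : ℂ → ℂ} (hg : ContinuousOn g D) {Y : ℂ} (hY : Y ∈ D) :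
    AEStronglyMeasurable (fun t : ℝ => Complex.exp (-(t * e) / 4) * g (Y + t * e) * e)
      (volume.restrict (Ioi 0)) :=
  ((h.cont hg hY).mono Ioi_subset_Ici_self).aestronglyMeasurable measurableSet_Ioi

theorem bnd {b : ℂ} {B : ℝ} (hb : ‖b‖ ≤ B) (t : ℝ) :
    ‖Complex.exp (-(t * e) / 4) * b * e‖ ≤ Real.exp (-(1 / 4) * t) * (B * 2) := by
  rw [norm_mul, norm_mul, h.norm_exp, mul_assoc]
  have := h.nrm
  have := (norm_nonneg _).trans hb
  gcongr

theorem integrable {g : ℂ → ℂ} (hg : ContinuousOn g D) {Y : ℂ} (hY : Y ∈ D) {B : ℝ}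
    (hb : ∀ t : ℝ, 0 < t → ‖g (Y + t * e)‖ ≤ B) :
    IntegrableOn (fun t : ℝ => Complex.exp (-(t * e) / 4) * g (Y + t * e) * e) (Ioi 0) := by
  refine Integrable.mono' ((integrableOn_exp_mul_Ioi (a := -(1 / 4)) (by norm_num) 0).mul_const
    (B * 2)) (h.meas hg hY) ?_
  filter_upwards [ae_restrict_mem measurableSet_Ioi] with t ht using h.bnd (hb t ht) t

theorem weak {g : ℂ → ℂ} {A : ℝ} (hA : 0 ≤ A) (hb : ∀ η ∈ D, ‖g η‖ ≤ A / ‖η‖) {η : ℂ}
    (hη : η ∈ D) : ‖g η‖ ≤ A :=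
  (hb η hη).trans (div_le_self hA (le_trans (by norm_num) (h.far η hη)))

theorem lap_sub {f g : ℂ → ℂ} (hf : ContinuousOn f D) (hg : ContinuousOn g D) {A : ℝ}
    (hA : 0 ≤ A) (bf : ∀ η ∈ D, ‖f η‖ ≤ A / ‖η‖) (bg : ∀ η ∈ D, ‖g η‖ ≤ A / ‖η‖) {Y : ℂ}
    (hY : Y ∈ D) : lap e f Y - lap e g Y = lap e (fun η => f η - g η) Y := by
  have i1 := h.integrable hf hY fun t ht => h.weak hA bf (h.inv Y hY t ht.le)
  have i2 := h.integrable hg hY fun t ht => h.weak hA bg (h.inv Y hY t ht.le)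
  unfold lap
  rw [neg_sub_neg, ← neg_sub, ← integral_sub i1 i2]
  congr 2
  ext t
  ring

theorem norm_lap {g : ℂ → ℂ} {A : ℝ} (hA : 0 ≤ A) (hb : ∀ η ∈ D, ‖g η‖ ≤ A / ‖η‖) {Y : ℂ}
    (hY : Y ∈ D) : ‖lap e g Y‖ ≤ 128 * A / ‖Y‖ := by
  have hp := h.pos hY
  unfold lap
  rw [norm_neg]
  refine (norm_integral_le_of_norm_le ((integrableOn_exp_mul_Ioi (a := -(1 / 8))
    (by norm_num) 0).mul_const (16 * A / ‖Y‖)) ?_).trans (le_of_eq ?_)
  · filter_upwards [ae_restrict_mem measurableSet_Ioi] with t ht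
    have ht : 0 < t := ht
    have m := h.inv Y hY t ht.le
    have p := h.pos m
    have f := h.far _ m
    have a1 : ‖Y‖ ≤ ‖Y + t * e‖ + 2 * t := by
      have : ‖(t : ℂ) * e‖ ≤ 2 * t := by
        rw [norm_mul, Complex.norm_real, Real.norm_eq_abs, abs_of_pos ht]
        nlinarith [h.nrm]
      calc ‖Y‖ = ‖(Y + t * e) - t * e‖ := by ring_nf
        _ ≤ ‖Y + t * e‖ + ‖(t : ℂ) * e‖ := norm_sub_le _ _
        _ ≤ _ := by linarith
    have a2 : 1 + t / 8 ≤ Real.exp (t / 8) := by linarith [Real.add_one_le_exp (t / 8)]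
    have a3 : A / ‖Y + t * e‖ ≤ Real.exp (t / 8) * (8 * A / ‖Y‖) := by
      rw [← mul_div_assoc, div_le_div_iff₀ p hp]
      have : ‖Y‖ ≤ Real.exp (t / 8) * 8 * ‖Y + t * e‖ := by nlinarith
      nlinarith
    refine (h.bnd ((hb _ m).trans a3) t).trans (le_of_eq ?_)
    rw [show -(1 / 8) * t = -(1 / 4) * t + t / 8 by ring, Real.exp_add]
    ring
  · rw [integral_mul_const, integral_exp_mul_Ioi (by norm_num)]
    simp
    ring

theorem hasDerivAt_lap {g : ℂ → ℂ} (hg : DifferentiableOn ℂ g D) {A : ℝ} (hA : 0 ≤ A)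
    (hb : ∀ η ∈ D, ‖g η‖ ≤ A / ‖η‖) {Y : ℂ} (hY : Y ∈ D) :
    HasDerivAt (lap e g) (lap e g Y / 4 + g Y) Y := by
  obtain ⟨ρ, hρ, hB⟩ := Metric.isOpen_iff.1 h.op Y hY
  have r0 : 0 < ρ / 2 := half_pos hρ
  have hg' : DifferentiableOn ℂ (deriv g) D := hg.deriv h.op
  have dg : ∀ η ∈ D, HasDerivAt g (deriv g η) η := fun η hη =>
    (hg.differentiableAt (h.op.mem_nhds hη)).hasDerivAt
  have inB : ∀ x ∈ ball Y (ρ / 2), x ∈ D := fun x hx => hB (ball_subset_ball (by linarith) hx)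
  have cau : ∀ x ∈ ball Y (ρ / 2), ∀ t : ℝ, 0 ≤ t → ‖deriv g (x + t * e)‖ ≤ A / (ρ / 2) := by
    intro x hx t ht
    have sub : closedBall (x + t * e) (ρ / 2) ⊆ D := fun η hη => by
      have : η - t * e ∈ ball Y ρ := by
        rw [mem_ball, dist_eq_norm] at *
        rw [mem_closedBall, dist_eq_norm] at hη
        calc ‖η - t * e - Y‖ = ‖(η - (x + t * e)) + (x - Y)‖ := by ring_nf
          _ ≤ ‖η - (x + t * e)‖ + ‖x - Y‖ := norm_add_le _ _
          _ < ρ := by linarith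
      simpa using h.inv _ (hB this) t ht
    exact Complex.norm_deriv_le_of_forall_mem_sphere_norm_le r0
      ((hg.mono sub).diffContOnCl_ball subset_rfl)
      fun z hz => h.weak hA hb (sub (sphere_subset_closedBall hz))
  have i1 := h.integrable hg.continuousOn hY fun t ht => h.weak hA hb (h.inv Y hY t ht.le)
  obtain ⟨i2, key⟩ := hasDerivAt_integral_of_dominated_loc_of_deriv_le
    (μ := volume.restrict (Ioi (0 : ℝ)))
    (F := fun x (t : ℝ) => Complex.exp (-(t * e) / 4) * g (x + t * e) * e)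
    (F' := fun x (t : ℝ) => Complex.exp (-(t * e) / 4) * deriv g (x + t * e) * e)
    (bound := fun t => Real.exp (-(1 / 4) * t) * (A / (ρ / 2) * 2)) (ball_mem_nhds Y r0)
    (by filter_upwards [h.op.mem_nhds hY] with x hx using h.meas hg.continuousOn hx) i1
    (h.meas hg'.continuousOn hY)
    (by
      filter_upwards [ae_restrict_mem measurableSet_Ioi] with t ht x hx
      exact h.bnd (cau x hx t (le_of_lt ht)) t)
    ((integrableOn_exp_mul_Ioi (a := -(1 / 4)) (by norm_num) 0).mul_const _)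
    (by
      filter_upwards [ae_restrict_mem measurableSet_Ioi] with t ht x hx
      have := (dg _ (h.inv x (inB x hx) t (le_of_lt ht))).comp_add_const x (t * e)
      exact (this.const_mul _).mul_const _)
  have ibp : ∫ t in Ioi (0 : ℝ), (Complex.exp (-(t * e) / 4) * deriv g (Y + t * e) * e
      - Complex.exp (-(t * e) / 4) * g (Y + t * e) * e / 4) = 0 - g Y := by
    have c0 : ContinuousOn (fun t : ℝ => Complex.exp (-(t * e) / 4) * g (Y + t * e)) (Ici 0) :=
      ContinuousOn.mul (by fun_prop)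
        (hg.continuousOn.comp (by fun_prop) fun t ht => h.inv Y hY t ht)
    have := integral_Ioi_of_hasDerivAt_of_tendsto
      (f := fun t : ℝ => Complex.exp (-(t * e) / 4) * g (Y + t * e))
      (f' := fun t : ℝ => Complex.exp (-(t * e) / 4) * deriv g (Y + t * e) * e
        - Complex.exp (-(t * e) / 4) * g (Y + t * e) * e / 4) (a := 0) (m := 0)
      (c0 0 (mem_Ici.2 le_rfl)) (fun t ht => ?_) (i2.sub (i1.div_const 4)) ?_
    · simpa using this
    · have d1 : HasDerivAt (fun z : ℂ => Complex.exp (-(z * e) / 4))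
          (Complex.exp (-(t * e) / 4) * (-e / 4)) (t : ℂ) := by
        simpa using (((hasDerivAt_id (t : ℂ)).mul_const e).neg.div_const 4).cexp
      have d2 : HasDerivAt (fun z : ℂ => g (Y + z * e)) (deriv g (Y + t * e) * e) (t : ℂ) := by
        have := (dg _ (h.inv Y hY t (le_of_lt ht))).comp (t : ℂ)
          (((hasDerivAt_id (t : ℂ)).mul_const e).const_add Y)
        rw [one_mul] at this
        exact this
      exact ((d1.mul d2).comp_ofReal).congr_deriv (by ring)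
    · refine squeeze_zero_norm' (a := fun t => Real.exp (-(1 / 4) * t) * A) ?_ ?_
      · filter_upwards [eventually_ge_atTop 0] with t ht
        rw [norm_mul, h.norm_exp]
        exact mul_le_mul_of_nonneg_left (h.weak hA hb (h.inv Y hY t ht)) (Real.exp_pos _).le
      · simpa using (Real.tendsto_exp_atBot.comp
          (tendsto_id.const_mul_atTop_of_neg (show -(1 / 4 : ℝ) < 0 by norm_num))).mul_const A
  rw [integral_sub i2 (i1.div_const 4), integral_div] at ibp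
  refine key.neg.congr_deriv ?_
  unfold lap
  linear_combination -ibp

end Dom

/-- the nonlinear part of the equation -/
def nl (k : ℂ → ℂ) (η : ℂ) : ℂ := rhs η (k η) - k η / 4

theorem nl_le {η a : ℂ} (hη : 128000 ≤ ‖η‖) (ha : ‖a‖ ≤ 128 / ‖η‖) :
    ‖rhs η a - a / 4‖ ≤ 1 / ‖η‖ := by
  have p : 0 < ‖η‖ := lt_of_lt_of_le (by norm_num) hη
  have h0 : η ≠ 0 := norm_pos_iff.1 p
  have a1 : ‖a‖ ≤ 1 / 1000 := ha.trans (by rw [div_le_div_iff₀ p (by norm_num)]; linarith)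
  have a2 : ‖a‖ * ‖η‖ ≤ 128 := (le_div_iff₀ p).1 ha
  have e : rhs η a - a / 4 = (a * η * (-2 * a + a * a) + 2 + -4 * a) / 4 / η := by
    unfold rhs; field_simp; ring
  rw [e, norm_div, norm_div, div_le_div_iff_of_pos_right p]
  have a0 := norm_nonneg a
  have b1 : ‖-2 * a + a * a‖ ≤ 3 / 1000 := (norm_add_le _ _).trans (by
    rw [norm_mul, norm_mul]; simp; nlinarith)
  have b2 : ‖a * η * (-2 * a + a * a)‖ ≤ 128 * (3 / 1000) := by
    rw [norm_mul, norm_mul]; gcongr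
  have b3 : ‖-4 * a‖ ≤ 4 / 1000 := by rw [norm_mul]; simp; linarith
  have b4 := norm_add₃_le (a := a * η * (-2 * a + a * a)) (b := 2) (c := -4 * a)
  simp only [Complex.norm_ofNat] at b4 ⊢
  linarith

/-- the coefficient of the equation for the difference of two solutions, without `1 / 4` -/
def cf (η a b : ℂ) : ℂ := (-2 * (a + b) + (a * a + a * b + b * b)) / 4 - 1 / η

theorem rhs_sub (η a b : ℂ) : rhs η a - rhs η b = (1 / 4 + cf η a b) * (a - b) := by
  unfold rhs cf; ring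

theorem cf_le {η a b : ℂ} (hη : 128000 ≤ ‖η‖) (ha : ‖a‖ ≤ 128 / ‖η‖) (hb : ‖b‖ ≤ 128 / ‖η‖) :
    ‖cf η a b‖ ≤ 130 / ‖η‖ := by
  have p : 0 < ‖η‖ := lt_of_lt_of_le (by norm_num) hη
  have a1 : 128 / ‖η‖ ≤ 1 / 1000 := by rw [div_le_div_iff₀ p (by norm_num)]; linarith
  have a0 := norm_nonneg a
  have b0 := norm_nonneg b
  have e1 : 130 / ‖η‖ = 128 / ‖η‖ + 2 * (1 / ‖η‖) := by ring
  have e2 : 128 / ‖η‖ = 128 * (1 / ‖η‖) := by ring
  have q : 0 < 1 / ‖η‖ := by positivity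
  have b1 : ‖-2 * (a + b)‖ ≤ 4 * (128 / ‖η‖) := by
    rw [norm_mul]; simp only [norm_neg, Complex.norm_ofNat]; linarith [norm_add_le a b]
  have b2 : ‖a * a + a * b + b * b‖ ≤ 1 / ‖η‖ := norm_add₃_le.trans (by
    rw [norm_mul, norm_mul, norm_mul]; nlinarith)
  unfold cf
  refine (norm_sub_le _ _).trans ?_
  rw [norm_div, norm_div, norm_one]
  simp only [Complex.norm_ofNat]
  linarith [norm_add_le (-2 * (a + b)) (a * a + a * b + b * b)]

theorem nl_sub_le {η a b : ℂ} (hη : 128000 ≤ ‖η‖) (ha : ‖a‖ ≤ 128 / ‖η‖)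
    (hb : ‖b‖ ≤ 128 / ‖η‖) : ‖(rhs η a - a / 4) - (rhs η b - b / 4)‖ ≤ ‖a - b‖ / 256 := by
  have p : 0 < ‖η‖ := lt_of_lt_of_le (by norm_num) hη
  have e : (rhs η a - a / 4) - (rhs η b - b / 4) = cf η a b * (a - b) := by
    linear_combination rhs_sub η a b
  have a1 : 130 / ‖η‖ ≤ 1 / 256 := by rw [div_le_div_iff₀ p (by norm_num)]; linarith
  rw [e, norm_mul]
  nlinarith [(cf_le hη ha hb).trans a1, norm_nonneg (a - b)]

namespace Dom

variable {D : Set ℂ} {e : ℂ} (h : Dom D e)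
include h

theorem diff_nl {k : ℂ → ℂ} (hk : DifferentiableOn ℂ k D) : DifferentiableOn ℂ (nl k) D := by
  have h0 : ∀ η ∈ D, η ≠ 0 := fun η hη => norm_pos_iff.1 (h.pos hη)
  unfold nl rhs
  fun_prop (disch := assumption)

theorem step {k : ℂ → ℂ} (hk : DifferentiableOn ℂ k D) (hb : ∀ η ∈ D, ‖k η‖ ≤ 128 / ‖η‖) :
    (∀ Y ∈ D, HasDerivAt (lap e (nl k)) (lap e (nl k) Y / 4 + nl k Y) Y) ∧
      ∀ Y ∈ D, ‖lap e (nl k) Y‖ ≤ 128 / ‖Y‖ := by
  have b : ∀ η ∈ D, ‖nl k η‖ ≤ 1 / ‖η‖ := fun η hη => nl_le (h.far η hη) (hb η hη)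
  exact ⟨fun Y hY => h.hasDerivAt_lap (h.diff_nl hk) zero_le_one b hY,
    fun Y hY => by simpa using h.norm_lap zero_le_one b hY⟩

theorem contr {k l : ℂ → ℂ} (hk : DifferentiableOn ℂ k D) (hb : ∀ η ∈ D, ‖k η‖ ≤ 128 / ‖η‖)
    (hl : DifferentiableOn ℂ l D) (hc : ∀ η ∈ D, ‖l η‖ ≤ 128 / ‖η‖) {A : ℝ} (hA : 0 ≤ A)
    (hd : ∀ η ∈ D, ‖k η - l η‖ ≤ A / ‖η‖) {Y : ℂ} (hY : Y ∈ D) :
    ‖lap e (nl k) Y - lap e (nl l) Y‖ ≤ A / 2 / ‖Y‖ := by
  rw [h.lap_sub (h.diff_nl hk).continuousOn (h.diff_nl hl).continuousOn zero_le_one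
    (fun η hη => nl_le (h.far η hη) (hb η hη)) (fun η hη => nl_le (h.far η hη) (hc η hη)) hY]
  refine (h.norm_lap (A := A / 256) (by positivity) (fun η hη => ?_) hY).trans (le_of_eq ?_)
  · refine (nl_sub_le (h.far η hη) (hb η hη) (hc η hη)).trans ?_
    have := hd η hη
    rw [div_right_comm]
    linarith
  · ring

/-- existence of a small solution -/
theorem exists_sol : ∃ k : ℂ → ℂ, (∀ Y ∈ D, HasDerivAt k (rhs Y (k Y)) Y) ∧
    ∀ Y ∈ D, ‖k Y‖ ≤ 128 / ‖Y‖ := by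
  let u : ℕ → ℂ → ℂ := fun n => (fun k => lap e (nl k))^[n] fun _ => 0
  have us : ∀ n, u (n + 1) = lap e (nl (u n)) := fun n => Function.iterate_succ_apply' _ _ _
  have good : ∀ n, DifferentiableOn ℂ (u n) D ∧ ∀ η ∈ D, ‖u n η‖ ≤ 128 / ‖η‖ := fun n => by
    induction n with
    | zero => exact ⟨differentiableOn_const _, fun η _ => by simp [u]; positivity⟩
    | succ n ih =>
      rw [us]
      obtain ⟨a, b⟩ := h.step ih.1 ih.2
      exact ⟨fun Y hY => (a Y hY).differentiableAt.differentiableWithinAt, b⟩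
  have geo : ∀ n, ∀ η ∈ D, ‖u n η - u (n + 1) η‖ ≤ 256 / 2 / 2 ^ n / ‖η‖ := fun n => by
    induction n with
    | zero =>
      intro η hη
      have := (good 1).2 η hη
      norm_num [u] at this ⊢
      simpa [u] using this
    | succ n ih =>
      intro η hη
      rw [us (n + 1), us n]
      refine (h.contr (good n).1 (good n).2 (us n ▸ (good (n + 1)).1) (us n ▸ (good (n + 1)).2)
        (by positivity) (us n ▸ ih) hη).trans (le_of_eq ?_)
      rw [pow_succ]; ring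
  have geo' : ∀ η ∈ D, ∀ n, dist (u n η) (u (n + 1) η) ≤ 256 / ‖η‖ / 2 / 2 ^ n := fun η hη n => by
    rw [dist_eq_norm]
    exact (geo n η hη).trans (le_of_eq (by ring))
  let k : ℂ → ℂ := fun η => limUnder atTop fun n => u n η
  have lim : ∀ η ∈ D, Tendsto (fun n => u n η) atTop (𝓝 (k η)) := fun η hη =>
    (cauchySeq_of_le_geometric_two (geo' η hη)).tendsto_limUnder
  have dk : ∀ n, ∀ η ∈ D, ‖u n η - k η‖ ≤ 256 / 2 ^ n / ‖η‖ := fun n η hη => by
    have := dist_le_of_le_geometric_two_of_tendsto (geo' η hη) (lim η hη) n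
    rw [dist_eq_norm] at this
    exact this.trans (le_of_eq (by ring))
  have z : Tendsto (fun n : ℕ => (256 : ℝ) / 2 ^ n) atTop (𝓝 0) :=
    tendsto_const_nhds.div_atTop (tendsto_pow_atTop_atTop_of_one_lt one_lt_two)
  have uni : TendstoUniformlyOn u k atTop D := by
    rw [Metric.tendstoUniformlyOn_iff]
    intro ε hε
    filter_upwards [z.eventually (gt_mem_nhds hε)] with n hn η hη
    rw [dist_comm, dist_eq_norm]
    exact (h.weak (by positivity) (dk n) hη).trans_lt hn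
  have dif : DifferentiableOn ℂ k D := uni.tendstoLocallyUniformlyOn.differentiableOn
    (Eventually.of_forall fun n => (good n).1) h.op
  have bd : ∀ η ∈ D, ‖k η‖ ≤ 128 / ‖η‖ := fun η hη =>
    le_of_tendsto' (lim η hη).norm fun n => (good n).2 η hη
  have fix : ∀ η ∈ D, k η = lap e (nl k) η := fun η hη => by
    refine tendsto_nhds_unique ((lim η hη).comp (tendsto_add_atTop_nat 1)) ?_
    rw [tendsto_iff_norm_sub_tendsto_zero]
    refine squeeze_zero (fun _ => norm_nonneg _) (fun n => ?_)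
      (by simpa using (z.div_const 2).div_const ‖η‖)
    simp only [Function.comp, us]
    exact h.contr (good n).1 (good n).2 dif bd (by positivity) (dk n) hη
  refine ⟨k, fun Y hY => ?_, bd⟩
  have := ((h.step dif bd).1 Y hY).congr_of_eventuallyEq
    (show k =ᶠ[𝓝 Y] _ by filter_upwards [h.op.mem_nhds hY] with η hη using fix η hη)
  refine this.congr_deriv ?_
  rw [← fix Y hY, nl]
  ring

end Dom

end Vale.Agent.P218N.Stokes
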